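import Vale.Agent.P031.Main

namespace Vale.Agent.Results.P031.ErdosHall

/-- `V x` is the number of distinct values `v = φ(n)`, `n ≥ 1`, of Euler's totient function
with `v ≤ x`. -/
noncomputable def V (x : ℝ) : ℕ :=
  Set.ncard {v : ℕ | (∃ n : ℕ, 1 ≤ n ∧ Nat.totient n = v) ∧ (v : ℝ) ≤ x}

/-- Erdős–Hall: `V(cx)/V(x) → c` as `x → ∞`, for every fixed real `c > 1`. -/
theorem result (c : ℝ) (hc : 1 < c) :
    Filter.Tendsto (fun x : ℝ => (V (c * x) : ℝ) / (V x : ℝ)) Filter.atTop (nhds c) := by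
  have hV : ∀ x : ℝ, 0 ≤ x → V x = (Vale.Agent.P031.tots x).card := by
    intro x hx
    unfold V
    rw [← Set.ncard_coe_finset]
    congr 1
    ext v
    simp only [Set.mem_setOf_eq, Finset.mem_coe, Vale.Agent.P031.mem_tots hx]
    rfl
  refine (Vale.Agent.P031.goal c hc).congr' ?_
  filter_upwards [Filter.eventually_ge_atTop 0] with x hx
  rw [hV x hx, hV (c * x) (mul_nonneg (by linarith) hx)]

end Vale.Agent.Results.P031.ErdosHall
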